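import Vale.Agent.P015.R2.H74.Bogolyubov

/-! The form of Bogolyubov–Ruzsa used by the P015 team. -/

open Finset

namespace Vale.Agent.P015.H74

open Vale.Agent.P057

theorem bogolyubov : ∃ C : ℝ, 1 ≤ C ∧ ∀ (G : Type) [AddCommGroup G] [Fintype G] [DecidableEq G]
    (A : Finset G) (a : ℝ), 0 < a → a ≤ 1/2 → a * (Fintype.card G : ℝ) ≤ A.card →
  ∃ Γ : Finset (AddChar G ℂ), (Γ.card : ℝ) ≤ C * (Real.log (1/a))^4 ∧
   ∀ x ∈ Vale.Agent.P057.bohr Γ (a^2 / C),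
     ∃ p ∈ A, ∃ q ∈ A, ∃ r ∈ A, ∃ s ∈ A, x = p + q - r - s := by
  refine ⟨2 * 10 ^ 10, by norm_num, ?_⟩
  intro G _ _ _ A a ha ha2 haA
  obtain ⟨Γ, h1, h2⟩ := Vale.Agent.P015.R2.H74.bogolyubov A a ha haA
  have hpos : 0 < Real.log (2 / a) := by
    apply Real.log_pos
    rw [lt_div_iff₀ ha]
    linarith only [ha2]
  have hlog : Real.log (2 / a) ≤ 2 * Real.log (1 / a) := by
    have h3 : Real.log ((1 / a) ^ 2) = 2 * Real.log (1 / a) := by
      rw [Real.log_pow]; norm_num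
    rw [← h3]
    apply Real.log_le_log (by positivity)
    rw [div_le_iff₀ ha, div_pow, one_pow, div_mul_eq_mul_div, one_mul, le_div_iff₀ (by positivity)]
    nlinarith only [ha, ha2]
  refine ⟨Γ, ?_, ?_⟩
  · refine h1.trans ?_
    calc 4 * 10 ^ 7 * Real.log (2 / a) ^ 4 ≤ 4 * 10 ^ 7 * (2 * Real.log (1 / a)) ^ 4 := by gcongr
      _ = 64 * 10 ^ 7 * Real.log (1 / a) ^ 4 := by ring
      _ ≤ 2 * 10 ^ 10 * Real.log (1 / a) ^ 4 := by
          have : 0 ≤ Real.log (1 / a) ^ 4 := by positivity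
          nlinarith only [this]
  · intro x hx
    refine h2 x (bohr_mono Γ ?_ hx)
    have h3 := Real.pow_div_factorial_le_exp (Real.log (2 / a)) hpos.le 4
    rw [Real.exp_log (by positivity)] at h3
    have h4 : Real.log (2 / a) ^ 4 ≤ 48 / a := by
      have : ((Nat.factorial 4 : ℕ) : ℝ) = 24 := by norm_num [Nat.factorial]
      rw [this, div_le_iff₀ (by norm_num)] at h3
      calc Real.log (2 / a) ^ 4 ≤ 2 / a * 24 := h3
        _ = 48 / a := by ring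
    have h5 : Real.log (2 / a) ^ 4 * a ≤ 48 := by rwa [le_div_iff₀ ha] at h4
    have h6 : (0:ℝ) < Real.log (2 / a) ^ 4 := by positivity
    rw [div_le_div_iff₀ (by norm_num) (by positivity)]
    have h7 : a ^ 2 * (4 * 10 ^ 8 * Real.log (2 / a) ^ 4)
        = a * (4 * 10 ^ 8) * (Real.log (2 / a) ^ 4 * a) := by ring
    rw [h7]
    calc a * (4 * 10 ^ 8) * (Real.log (2 / a) ^ 4 * a) ≤ a * (4 * 10 ^ 8) * 48 := by gcongr
      _ ≤ a * (2 * 10 ^ 10) := by nlinarith only [ha]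

end Vale.Agent.P015.H74
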