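import Vale.Agent.P057.Bdl.B1

/-!
# Bogolyubov–Ruzsa in a finite abelian group (Croot–Sisask + Chang)

`bogolyubov`: if `A` has density at least `a` in the finite abelian group `G`, then `2A - 2A`
contains a Bohr set of rank `O(log^4 (2/a))` and radius `a / O(log^4 (2/a))`.
-/

open Finset

namespace Vale.Agent.P015.R2.H74

open Vale.Agent.P057

variable {G : Type*} [AddCommGroup G] [Fintype G] [DecidableEq G]

/-! ## Almost periods of `1_S * 1_A` -/

open Classical in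
/-- Croot–Sisask in the whole group, as a statement about single translations. -/
theorem cs_periods (Y S : Finset G) (hY : Y.Nonempty)
    (ε : ℝ) (hε : 0 < ε) (hε1 : ε ≤ 1) (n : ℕ)
    (hn : 4 * Real.exp (-(ε^2 * n / 4)) * (Fintype.card G : ℝ) ≤ ε * (Y.card : ℝ)) :
    ∃ T : Finset G, T.Nonempty ∧
      (1/2) * ((Y.card : ℝ) / (Fintype.card G : ℝ)) ^ n * (Fintype.card G : ℝ) ≤ (T.card : ℝ) ∧
      ∀ t ∈ T, ∀ t' ∈ T,
        ((univ.filter (fun x => 2 * ε * (Y.card : ℝ)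
          < |csH Y S (x + (t - t')) - csH Y S x|)).card : ℝ) ≤ 2 * ε * (Y.card : ℝ) := by
  have hc : (0 : ℝ) < (Y.card : ℝ) := by exact_mod_cast Finset.card_pos.mpr hY
  set U : Finset G := univ with hU
  have hUne : U.Nonempty := ⟨0, mem_univ _⟩
  have hUc : (U.card : ℝ) = (Fintype.card G : ℝ) := by rw [hU, card_univ]
  rw [← hUc] at hn ⊢
  have hcU : (0 : ℝ) < (U.card : ℝ) := by exact_mod_cast Finset.card_pos.mpr hUne
  have hcYU : (Y.card : ℝ) ≤ (U.card : ℝ) := by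
    exact_mod_cast Finset.card_le_card (Finset.subset_univ Y)
  have hn0 : 0 < n := by
    rcases Nat.eq_zero_or_pos n with h | h
    · exfalso
      subst h
      simp only [CharP.cast_eq_zero, mul_zero, zero_div, neg_zero, Real.exp_zero, mul_one] at hn
      nlinarith only [hcU, hcYU, hn, hε1]
    · exact h
  have hnR : (0 : ℝ) < (n : ℝ) := by exact_mod_cast hn0
  set PU := Fintype.piFinset (fun _ : Fin n => U) with hPU
  set Lg := (Fintype.piFinset (fun _ : Fin n => Y)).filter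
        (fun v => ((U.filter (fun x => csBad Y S ε v x)).card : ℝ) ≤ ε * (Y.card : ℝ)) with hLg
  have hLgcard := cs_good_card Y U S hY ε hε hε1 n hn
  rw [← hLg] at hLgcard
  have hPUcard : (PU.card : ℝ) = (U.card : ℝ) ^ n := by
    rw [hPU, Fintype.card_piFinset, Finset.prod_const, Finset.card_fin]
    push_cast
    rfl
  -- double counting
  have hdc : ∑ z ∈ PU, ((U.filter (fun t => (fun i => z i - t) ∈ Lg)).card : ℝ)
      = (U.card : ℝ) * (Lg.card : ℝ) := by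
    have h1 : ∑ z ∈ PU, ((U.filter (fun t => (fun i => z i - t) ∈ Lg)).card : ℝ)
        = ∑ t ∈ U, ((PU.filter (fun z => (fun i => z i - t) ∈ Lg)).card : ℝ) := by
      have : ∀ z ∈ PU, ((U.filter (fun t => (fun i => z i - t) ∈ Lg)).card : ℝ)
          = ∑ t ∈ U, (if (fun i => z i - t) ∈ Lg then (1 : ℝ) else 0) := by
        intro z _
        rw [Finset.card_filter]
        push_cast
        rfl
      rw [Finset.sum_congr rfl this, Finset.sum_comm]
      refine Finset.sum_congr rfl (fun x _ => ?_)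
      rw [Finset.card_filter]
      push_cast
      rfl
    rw [h1]
    have h2 : ∀ t ∈ U, ((PU.filter (fun z => (fun i => z i - t) ∈ Lg)).card : ℝ)
        = (Lg.card : ℝ) := by
      intro t ht
      norm_cast
      refine Finset.card_bij' (fun z _ => fun i => z i - t) (fun v _ => fun i => v i + t)
        ?_ ?_ ?_ ?_
      · intro z hz
        exact (Finset.mem_filter.mp hz).2
      · intro v hv
        rw [Finset.mem_filter]
        refine ⟨?_, ?_⟩
        · rw [hPU, Fintype.mem_piFinset]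
          intro i
          exact mem_univ _
        · simpa using hv
      · intro z _
        funext i
        simp
      · intro v _
        funext i
        simp
    rw [Finset.sum_congr rfl h2, Finset.sum_const, nsmul_eq_mul]
  -- pigeonhole
  obtain ⟨z, hz, hzT⟩ : ∃ z ∈ PU, (1/2) * ((Y.card : ℝ) / (U.card : ℝ)) ^ n * (U.card : ℝ)
      ≤ ((U.filter (fun t => (fun i => z i - t) ∈ Lg)).card : ℝ) := by
    by_contra hcon
    push Not at hcon
    have hPUne : PU.Nonempty := by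
      rw [hPU, Fintype.piFinset_nonempty]
      exact fun _ => hUne
    have hlt := Finset.sum_lt_sum_of_nonempty hPUne hcon
    rw [hdc, Finset.sum_const, nsmul_eq_mul, hPUcard] at hlt
    have e : (U.card : ℝ) ^ n * ((1/2) * ((Y.card : ℝ) / (U.card : ℝ)) ^ n * (U.card : ℝ))
        = (U.card : ℝ) * ((1/2) * (Y.card : ℝ) ^ n) := by
      rw [div_pow]
      (clear * - hUne hcU hY; field_simp)
    rw [e] at hlt
    have := lt_of_mul_lt_mul_left hlt hcU.le
    linarith only [hLgcard, this]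
  set T := U.filter (fun t => (fun i => z i - t) ∈ Lg) with hT
  have hTpos : 0 < (T.card : ℝ) := lt_of_lt_of_le (by (clear * - hY hUne hcU; positivity)) hzT
  refine ⟨T, Finset.card_pos.mp (by exact_mod_cast hTpos), hzT, ?_⟩
  intro t ht t' ht'
  have hgt := (Finset.mem_filter.mp (Finset.mem_filter.mp ht).2).2
  have hgt' := (Finset.mem_filter.mp (Finset.mem_filter.mp ht').2).2
  have hsub : U.filter (fun x => 2 * ε * (Y.card : ℝ)
          < |csH Y S (x + (t - t')) - csH Y S x|) ⊆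
      U.filter (fun x => csBad Y S ε (fun i => z i - t) x) ∪
      U.filter (fun x => csBad Y S ε (fun i => z i - t') (x + (t - t'))) := by
    intro x hx
    rw [mem_filter] at hx
    rw [mem_union, mem_filter, mem_filter]
    by_contra hcon
    push Not at hcon
    obtain ⟨h1, h2⟩ := hcon
    have h1 := h1 (mem_univ _)
    have h2 := h2 (mem_univ _)
    unfold csBad at h1 h2
    rw [not_lt] at h1 h2
    rw [csHit_shift] at h1 h2
    have e3 : x + (t - t') + t' = x + t := by abel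
    rw [e3] at h2
    have h5 : |(n : ℝ) * (csH Y S (x + (t - t')) / Y.card) - n * (csH Y S x / Y.card)|
        ≤ 2 * ε * n := by
      rw [abs_le] at h1 h2 ⊢
      constructor <;> linarith only [h1.1, h1.2, h2.1, h2.2]
    have h6 : (n : ℝ) * (csH Y S (x + (t - t')) / Y.card) - n * (csH Y S x / Y.card)
        = (n / Y.card) * (csH Y S (x + (t - t')) - csH Y S x) := by
      field_simp
    rw [h6, abs_mul, abs_of_pos (div_pos hnR hc)] at h5
    have h7 := hx.2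
    have h8 : (n / Y.card : ℝ) * (2 * ε * (Y.card : ℝ))
        < (n / Y.card : ℝ) * |csH Y S (x + (t - t')) - csH Y S x| :=
      mul_lt_mul_of_pos_left h7 (div_pos hnR hc)
    have h9 : (n / Y.card : ℝ) * (2 * ε * (Y.card : ℝ)) = 2 * ε * n := by
      field_simp
    rw [h9] at h8
    linarith only [h5, h8]
  have hcard := (Finset.card_le_card hsub).trans (Finset.card_union_le _ _)
  have hb2 : (U.filter (fun x => csBad Y S ε (fun i => z i - t') (x + (t - t')))).card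
      ≤ (U.filter (fun x => csBad Y S ε (fun i => z i - t') x)).card := by
    refine Finset.card_le_card_of_injOn (fun x => x + (t - t')) ?_ ?_
    · intro x hx
      have hx' := Finset.mem_filter.mp (Finset.mem_coe.mp hx)
      exact Finset.mem_coe.mpr (Finset.mem_filter.mpr ⟨mem_univ _, hx'.2⟩)
    · intro a _ b _ hab
      exact add_right_cancel hab
  have hcard' : ((U.filter (fun x => 2 * ε * (Y.card : ℝ)
          < |csH Y S (x + (t - t')) - csH Y S x|)).card : ℝ) ≤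
      ((U.filter (fun x => csBad Y S ε (fun i => z i - t) x)).card : ℝ) +
      ((U.filter (fun x => csBad Y S ε (fun i => z i - t') x)).card : ℝ) := by
    exact_mod_cast hcard.trans (Nat.add_le_add_left hb2 _)
  linarith only [hcard', hgt, hgt']

/-- the triple correlation `∑_{x ∈ A} (1_S * 1_A)(x + u)` -/
noncomputable def phi (A S : Finset G) (u : G) : ℝ := ∑ x ∈ A, csH A S (x + u)

open Classical in
theorem phi_shift (A S : Finset G) (δ : ℝ) (hδ : 0 ≤ δ) (s : G)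
    (h : ((univ.filter (fun x => δ * (A.card : ℝ)
          < |csH A S (x + s) - csH A S x|)).card : ℝ) ≤ δ * (A.card : ℝ)) (u : G) :
    |phi A S (u + s) - phi A S u| ≤ 2 * δ * (A.card : ℝ) ^ 2 := by
  set bad : Finset G := univ.filter (fun x => δ * (A.card : ℝ)
          < |csH A S (x + s) - csH A S x|) with hbad
  have hpt : ∀ x ∈ A, |csH A S (x + (u + s)) - csH A S (x + u)|
      ≤ δ * (A.card : ℝ) + (if x + u ∈ bad then (A.card : ℝ) else 0) := by
    intro x _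
    have e : x + (u + s) = x + u + s := by abel
    rw [e]
    by_cases hb : x + u ∈ bad
    · rw [if_pos hb]
      have h1 := csH_nonneg A S (x + u)
      have h2 := csH_le A S (x + u)
      have h3 := csH_nonneg A S (x + u + s)
      have h4 := csH_le A S (x + u + s)
      have h5 : 0 ≤ δ * (A.card : ℝ) := by positivity
      rw [abs_le]
      constructor <;> linarith only [h1, h2, h3, h4, h5]
    · rw [if_neg hb, add_zero]
      rw [hbad, mem_filter] at hb
      push Not at hb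
      exact hb (mem_univ _)
  have h1 : |phi A S (u + s) - phi A S u|
      ≤ ∑ x ∈ A, (δ * (A.card : ℝ) + (if x + u ∈ bad then (A.card : ℝ) else 0)) := by
    unfold phi
    rw [← Finset.sum_sub_distrib]
    exact (Finset.abs_sum_le_sum_abs _ _).trans (Finset.sum_le_sum hpt)
  have h2 : ∑ x ∈ A, (if x + u ∈ bad then (A.card : ℝ) else 0) ≤ (bad.card : ℝ) * (A.card : ℝ) := by
    rw [← Finset.sum_filter, Finset.sum_const, nsmul_eq_mul]
    refine mul_le_mul_of_nonneg_right ?_ (Nat.cast_nonneg _)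
    norm_cast
    refine Finset.card_le_card_of_injOn (fun x => x + u) ?_ ?_
    · intro x hx
      exact (Finset.mem_filter.mp (Finset.mem_coe.mp hx)).2
    · intro a _ b _ hab
      exact add_right_cancel hab
  rw [Finset.sum_add_distrib, Finset.sum_const, nsmul_eq_mul] at h1
  have h3 : (bad.card : ℝ) * (A.card : ℝ) ≤ δ * (A.card : ℝ) * (A.card : ℝ) :=
    mul_le_mul_of_nonneg_right h (Nat.cast_nonneg _)
  nlinarith only [h1, h2, h3]

/-! ## Iterated averaging over `T - T` -/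

/-- sum of `f` over the translates by differences of elements of `T` -/
noncomputable def avg (T : Finset G) (f : G → ℝ) (u : G) : ℝ :=
  ∑ t ∈ T, ∑ t' ∈ T, f (u + (t - t'))

theorem avg_iter_near (T : Finset G) (f : G → ℝ) (δ : ℝ)
    (h : ∀ t ∈ T, ∀ t' ∈ T, ∀ u, |f (u + (t - t')) - f u| ≤ δ) (k : ℕ) (u : G) :
    |((avg T)^[k] f) u - ((T.card : ℝ) ^ 2) ^ k * f u| ≤ k * δ * ((T.card : ℝ) ^ 2) ^ k := by
  induction k generalizing u with
  | zero => simp
  | succ k ih =>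
    rw [Function.iterate_succ_apply']
    set g := (avg T)^[k] f with hg
    have h1 : ∀ t ∈ T, ∀ t' ∈ T,
        |g (u + (t - t')) - ((T.card : ℝ) ^ 2) ^ k * f u|
          ≤ (k + 1) * δ * ((T.card : ℝ) ^ 2) ^ k := by
      intro t ht t' ht'
      have h2 := ih (u + (t - t'))
      have h3 := h t ht t' ht' u
      have h4 : |((T.card : ℝ) ^ 2) ^ k * f (u + (t - t')) - ((T.card : ℝ) ^ 2) ^ k * f u|
          ≤ ((T.card : ℝ) ^ 2) ^ k * δ := by
        rw [← mul_sub, abs_mul, abs_of_nonneg (by positivity : (0:ℝ) ≤ ((T.card : ℝ) ^ 2) ^ k)]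
        exact mul_le_mul_of_nonneg_left h3 (by positivity)
      calc |g (u + (t - t')) - ((T.card : ℝ) ^ 2) ^ k * f u|
          ≤ |g (u + (t - t')) - ((T.card : ℝ) ^ 2) ^ k * f (u + (t - t'))|
            + |((T.card : ℝ) ^ 2) ^ k * f (u + (t - t')) - ((T.card : ℝ) ^ 2) ^ k * f u| :=
              abs_sub_le _ _ _
        _ ≤ k * δ * ((T.card : ℝ) ^ 2) ^ k + ((T.card : ℝ) ^ 2) ^ k * δ := add_le_add h2 h4
        _ = (k + 1) * δ * ((T.card : ℝ) ^ 2) ^ k := by ring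
    have h2 : avg T g u - ((T.card : ℝ) ^ 2) ^ (k + 1) * f u
        = ∑ t ∈ T, ∑ t' ∈ T, (g (u + (t - t')) - ((T.card : ℝ) ^ 2) ^ k * f u) := by
      unfold avg
      simp only [Finset.sum_sub_distrib, Finset.sum_const, nsmul_eq_mul]
      ring
    rw [h2]
    calc |∑ t ∈ T, ∑ t' ∈ T, (g (u + (t - t')) - ((T.card : ℝ) ^ 2) ^ k * f u)|
        ≤ ∑ t ∈ T, ∑ t' ∈ T, |g (u + (t - t')) - ((T.card : ℝ) ^ 2) ^ k * f u| :=
          (Finset.abs_sum_le_sum_abs _ _).trans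
            (Finset.sum_le_sum fun t _ => Finset.abs_sum_le_sum_abs _ _)
      _ ≤ ∑ t ∈ T, ∑ t' ∈ T, (k + 1) * δ * ((T.card : ℝ) ^ 2) ^ k :=
          Finset.sum_le_sum fun t ht => Finset.sum_le_sum fun t' ht' => h1 t ht t' ht'
      _ = ((k + 1 : ℕ) : ℝ) * δ * ((T.card : ℝ) ^ 2) ^ (k + 1) := by
          simp only [Finset.sum_const, nsmul_eq_mul]
          push_cast
          ring

theorem avg_fourier (T : Finset G) (f : G → ℝ) (c : AddChar G ℂ → ℂ)
    (h : ∀ u, ((f u : ℝ) : ℂ) = ∑ γ : AddChar G ℂ, c γ * γ u) (u : G) :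
    ((avg T f u : ℝ) : ℂ)
      = ∑ γ : AddChar G ℂ, (c γ * ((‖∑ t ∈ T, γ t‖ ^ 2 : ℝ) : ℂ)) * γ u := by
  have h1 : ∀ γ : AddChar G ℂ, (c γ * ((‖∑ t ∈ T, γ t‖ ^ 2 : ℝ) : ℂ)) * γ u
      = ∑ t ∈ T, ∑ t' ∈ T, c γ * γ (u + (t - t')) := by
    intro γ
    rw [← fourier_sum_sub, Finset.mul_sum, Finset.sum_mul]
    refine Finset.sum_congr rfl fun t _ => ?_
    rw [Finset.mul_sum, Finset.sum_mul]
    refine Finset.sum_congr rfl fun t' _ => ?_
    rw [AddChar.map_add_eq_mul]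
    ring
  simp_rw [h1]
  unfold avg
  push_cast
  simp_rw [h]
  rw [Finset.sum_comm (s := (univ : Finset (AddChar G ℂ))) (t := T)]
  refine Finset.sum_congr rfl fun t _ => ?_
  rw [Finset.sum_comm (s := (univ : Finset (AddChar G ℂ))) (t := T)]

theorem avg_iter_fourier (T : Finset G) (f : G → ℝ) (c : AddChar G ℂ → ℂ)
    (h : ∀ u, ((f u : ℝ) : ℂ) = ∑ γ : AddChar G ℂ, c γ * γ u) (k : ℕ) (u : G) :
    ((((avg T)^[k] f) u : ℝ) : ℂ)
      = ∑ γ : AddChar G ℂ, (c γ * (((‖∑ t ∈ T, γ t‖ ^ 2) ^ k : ℝ) : ℂ)) * γ u := by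
  induction k generalizing u with
  | zero => simpa using h u
  | succ k ih =>
    rw [Function.iterate_succ_apply', avg_fourier T _ _ ih]
    refine Finset.sum_congr rfl fun γ _ => ?_
    push_cast
    ring

/-- Fourier expansion of `phi` -/
theorem phi_fourier (A S : Finset G) (u : G) :
    ((phi A S u : ℝ) : ℂ) = ∑ γ : AddChar G ℂ,
      (((Fintype.card G : ℂ))⁻¹ * (∑ s ∈ S, γ (-s)) * ((‖∑ x ∈ A, γ x‖ ^ 2 : ℝ) : ℂ)) * γ u := by
  have hn : (Fintype.card G : ℂ) ≠ 0 := by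
    have : Nonempty G := ⟨0⟩
    exact_mod_cast Fintype.card_ne_zero
  have h1 : ∀ γ : AddChar G ℂ,
      (((Fintype.card G : ℂ))⁻¹ * (∑ s ∈ S, γ (-s)) * ((‖∑ x ∈ A, γ x‖ ^ 2 : ℝ) : ℂ)) * γ u
      = (Fintype.card G : ℂ)⁻¹ * ∑ x ∈ A, ∑ y ∈ A, ∑ s ∈ S, γ (x + u - y - s) := by
    intro γ
    rw [← fourier_sum_sub]
    have e : ((Fintype.card G : ℂ))⁻¹ * (∑ s ∈ S, γ (-s)) * (∑ y ∈ A, ∑ y' ∈ A, γ (y - y')) * γ u
        = (Fintype.card G : ℂ)⁻¹ * ((∑ y ∈ A, ∑ y' ∈ A, γ (y - y')) *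
            (γ u * (∑ s ∈ S, γ (-s)))) := by ring
    rw [e]
    congr 1
    rw [Finset.sum_mul]
    refine Finset.sum_congr rfl fun x _ => ?_
    rw [Finset.sum_mul]
    refine Finset.sum_congr rfl fun y _ => ?_
    rw [Finset.mul_sum, Finset.mul_sum]
    refine Finset.sum_congr rfl fun s _ => ?_
    rw [← AddChar.map_add_eq_mul, ← AddChar.map_add_eq_mul]
    congr 1
    abel
  simp_rw [h1]
  rw [← Finset.mul_sum]
  have h2 : ∑ γ : AddChar G ℂ, ∑ x ∈ A, ∑ y ∈ A, ∑ s ∈ S, γ (x + u - y - s)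
      = ∑ x ∈ A, ∑ y ∈ A, ∑ s ∈ S, ∑ γ : AddChar G ℂ, γ (x + u - y - s) := by
    rw [Finset.sum_comm (s := (univ : Finset (AddChar G ℂ))) (t := A)]
    refine Finset.sum_congr rfl fun x _ => ?_
    rw [Finset.sum_comm (s := (univ : Finset (AddChar G ℂ))) (t := A)]
    refine Finset.sum_congr rfl fun y _ => ?_
    rw [Finset.sum_comm (s := (univ : Finset (AddChar G ℂ))) (t := S)]
  rw [h2]
  have h3 : ∀ x ∈ A, ∀ y ∈ A, ∑ s ∈ S, ∑ γ : AddChar G ℂ, γ (x + u - y - s)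
      = (Fintype.card G : ℂ) * (if x + u - y ∈ S then 1 else 0) := by
    intro x _ y _
    have h4 : ∀ s ∈ S, ∑ γ : AddChar G ℂ, γ (x + u - y - s)
        = if s = x + u - y then (Fintype.card G : ℂ) else 0 := by
      intro s _
      rw [AddChar.sum_apply_eq_ite]
      have : x + u - y - s = 0 ↔ s = x + u - y := by
        constructor
        · intro h; exact (sub_eq_zero.1 h).symm
        · rintro rfl; abel
      simp only [this]
    rw [Finset.sum_congr rfl h4, Finset.sum_ite_eq']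
    split_ifs <;> simp
  rw [Finset.sum_congr rfl fun x hx => Finset.sum_congr rfl fun y hy => h3 x hx y hy]
  simp_rw [← Finset.mul_sum]
  rw [inv_mul_cancel_left₀ hn]
  unfold phi csH
  push_cast
  refine Finset.sum_congr rfl fun x _ => Finset.sum_congr rfl fun y _ => ?_
  split_ifs <;> simp

/-- Parseval -/
theorem parseval_card (A : Finset G) :
    ∑ γ : AddChar G ℂ, ‖∑ x ∈ A, γ x‖ ^ 2 = (Fintype.card G : ℝ) * A.card := by
  have h := fourier_corr A (0 : G)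
  simp only [AddChar.map_zero_eq_one, mul_one] at h
  have h2 : corr (ind A) (0 : G) = A.card := by
    unfold corr ind
    simp only [add_zero, mul_ite, mul_one, mul_zero]
    simp
  rw [h2] at h
  exact_mod_cast h

/-- Comparison of the iterated average at `x` and at `0`, for `x` in the Bohr set of the large
spectrum of `T`. -/
theorem avg_compare (A S T : Finset G) (k : ℕ) (x : G) (η : ℝ)
    (hlarge : ∀ γ : AddChar G ℂ, (T.card : ℝ) / 2 ≤ ‖∑ t ∈ T, γ t‖ → ‖γ x - 1‖ ≤ η)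
    (hη : 0 ≤ η) :
    |((avg T)^[k] (phi A S)) x - ((avg T)^[k] (phi A S)) 0|
      ≤ (η + 2 / 4 ^ k) * ((T.card : ℝ) ^ 2) ^ k * ((Fintype.card G : ℝ) * A.card) := by
  have hn : (0:ℝ) < (Fintype.card G : ℝ) := by
    have : Nonempty G := ⟨0⟩
    exact_mod_cast Fintype.card_pos
  have h1 := avg_iter_fourier T (phi A S) _ (phi_fourier A S) k x
  have h0 := avg_iter_fourier T (phi A S) _ (phi_fourier A S) k 0
  have hd : (((((avg T)^[k] (phi A S)) x - ((avg T)^[k] (phi A S)) 0 : ℝ)) : ℂ)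
      = ∑ γ : AddChar G ℂ,
        ((((Fintype.card G : ℂ))⁻¹ * (∑ s ∈ S, γ (-s)) * ((‖∑ x ∈ A, γ x‖ ^ 2 : ℝ) : ℂ))
          * (((‖∑ t ∈ T, γ t‖ ^ 2) ^ k : ℝ) : ℂ)) * (γ x - 1) := by
    rw [Complex.ofReal_sub, h1, h0, ← Finset.sum_sub_distrib]
    refine Finset.sum_congr rfl fun γ _ => ?_
    rw [AddChar.map_zero_eq_one]
    ring
  have hn2 : |((avg T)^[k] (phi A S)) x - ((avg T)^[k] (phi A S)) 0|
      = ‖(((((avg T)^[k] (phi A S)) x - ((avg T)^[k] (phi A S)) 0 : ℝ)) : ℂ)‖ := by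
    rw [Complex.norm_real, Real.norm_eq_abs]
  rw [hn2, hd]
  have hbound : ∀ γ : AddChar G ℂ,
      ‖((((Fintype.card G : ℂ))⁻¹ * (∑ s ∈ S, γ (-s)) * ((‖∑ x ∈ A, γ x‖ ^ 2 : ℝ) : ℂ))
          * (((‖∑ t ∈ T, γ t‖ ^ 2) ^ k : ℝ) : ℂ)) * (γ x - 1)‖
      ≤ (η + 2 / 4 ^ k) * ((T.card : ℝ) ^ 2) ^ k * ‖∑ x ∈ A, γ x‖ ^ 2 := by
    intro γ
    have hS : ‖∑ s ∈ S, γ (-s)‖ ≤ (Fintype.card G : ℝ) := by
      refine (norm_sum_le _ _).trans ?_
      simp only [AddChar.norm_apply, Finset.sum_const, nsmul_eq_mul, mul_one]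
      exact_mod_cast Finset.card_le_univ S
    have h2 : ‖((Fintype.card G : ℂ))⁻¹ * (∑ s ∈ S, γ (-s))‖ ≤ 1 := by
      rw [norm_mul, norm_inv, Complex.norm_natCast]
      rw [inv_mul_le_iff₀ hn, mul_one]
      exact hS
    rw [norm_mul, norm_mul, norm_mul, Complex.norm_real, Complex.norm_real,
      Real.norm_of_nonneg (by positivity), Real.norm_of_nonneg (by positivity)]
    have hTn : ‖∑ t ∈ T, γ t‖ ≤ (T.card : ℝ) := by
      refine (norm_sum_le _ _).trans ?_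
      simp [AddChar.norm_apply]
    have h3 : (‖∑ t ∈ T, γ t‖ ^ 2) ^ k * ‖γ x - 1‖
        ≤ (η + 2 / 4 ^ k) * ((T.card : ℝ) ^ 2) ^ k := by
      by_cases hl : (T.card : ℝ) / 2 ≤ ‖∑ t ∈ T, γ t‖
      · have h4 := hlarge γ hl
        have h5 : (‖∑ t ∈ T, γ t‖ ^ 2) ^ k ≤ ((T.card : ℝ) ^ 2) ^ k := by gcongr
        calc (‖∑ t ∈ T, γ t‖ ^ 2) ^ k * ‖γ x - 1‖
            ≤ ((T.card : ℝ) ^ 2) ^ k * η := by gcongr
          _ ≤ (η + 2 / 4 ^ k) * ((T.card : ℝ) ^ 2) ^ k := by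
              have : 0 ≤ (2 / 4 ^ k : ℝ) * ((T.card : ℝ) ^ 2) ^ k := by positivity
              linarith only [this]
      · push Not at hl
        have h4 : ‖γ x - 1‖ ≤ 2 := by
          calc ‖γ x - 1‖ ≤ ‖γ x‖ + ‖(1 : ℂ)‖ := norm_sub_le _ _
            _ = 2 := by rw [AddChar.norm_apply]; norm_num
        have h5 : (‖∑ t ∈ T, γ t‖ ^ 2) ^ k ≤ (((T.card : ℝ) / 2) ^ 2) ^ k := by gcongr
        have h6 : (((T.card : ℝ) / 2) ^ 2) ^ k = ((T.card : ℝ) ^ 2) ^ k / 4 ^ k := by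
          rw [div_pow, div_pow]; norm_num
        calc (‖∑ t ∈ T, γ t‖ ^ 2) ^ k * ‖γ x - 1‖
            ≤ (((T.card : ℝ) / 2) ^ 2) ^ k * 2 := by gcongr
          _ = (2 / 4 ^ k) * ((T.card : ℝ) ^ 2) ^ k := by rw [h6]; ring
          _ ≤ (η + 2 / 4 ^ k) * ((T.card : ℝ) ^ 2) ^ k := by
              have : 0 ≤ η * ((T.card : ℝ) ^ 2) ^ k := by positivity
              linarith only [this]
    have hA0 : 0 ≤ ‖∑ x ∈ A, γ x‖ ^ 2 := by positivity
    calc ‖((Fintype.card G : ℂ))⁻¹ * ∑ s ∈ S, γ (-s)‖ * ‖∑ x ∈ A, γ x‖ ^ 2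
          * (‖∑ t ∈ T, γ t‖ ^ 2) ^ k * ‖γ x - 1‖
        = ‖((Fintype.card G : ℂ))⁻¹ * ∑ s ∈ S, γ (-s)‖ * ‖∑ x ∈ A, γ x‖ ^ 2
          * ((‖∑ t ∈ T, γ t‖ ^ 2) ^ k * ‖γ x - 1‖) := by ring
      _ ≤ 1 * ‖∑ x ∈ A, γ x‖ ^ 2 * ((η + 2 / 4 ^ k) * ((T.card : ℝ) ^ 2) ^ k) := by
          gcongr
      _ = (η + 2 / 4 ^ k) * ((T.card : ℝ) ^ 2) ^ k * ‖∑ x ∈ A, γ x‖ ^ 2 := by ring
  refine (norm_sum_le _ _).trans ((Finset.sum_le_sum fun γ _ => hbound γ).trans ?_)
  rw [← Finset.mul_sum, parseval_card]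

/-! ## Bogolyubov -/

theorem bogolyubov_core (A : Finset G) (hA : A.Nonempty) (a : ℝ) (ha : 0 < a)
    (haA : a * (Fintype.card G : ℝ) ≤ (A.card : ℝ)) (k n j : ℕ) (hk : 0 < k)
    (hk4 : 16 / a ≤ 4 ^ k)
    (hn : 4 * Real.exp (-((1 / (32 * (k : ℝ))) ^ 2 * n / 4)) ≤ (1 / (32 * (k : ℝ))) * a)
    (hj : 16 * Real.log (8 / a ^ n) < j) :
    ∃ Γ : Finset (AddChar G ℂ), Γ.card ≤ j ∧ ∀ x ∈ bohr Γ (a / (8 * j)),
      ∃ a₁ ∈ A, ∃ a₂ ∈ A, ∃ a₃ ∈ A, ∃ a₄ ∈ A, x = a₁ + a₂ - a₃ - a₄ := by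
  classical
  have hGc : (0:ℝ) < (Fintype.card G : ℝ) := by
    have : Nonempty G := ⟨0⟩
    exact_mod_cast Fintype.card_pos
  have hAc : (0 : ℝ) < (A.card : ℝ) := by exact_mod_cast Finset.card_pos.mpr hA
  have hAG : (A.card : ℝ) ≤ (Fintype.card G : ℝ) := by exact_mod_cast Finset.card_le_univ A
  have ha1 : a ≤ 1 := by
    by_contra h
    push Not at h
    nlinarith only [h, hGc, haA, hAG]
  have hkR : (0 : ℝ) < (k : ℝ) := by exact_mod_cast hk
  have hk1 : (1 : ℝ) ≤ (k : ℝ) := by exact_mod_cast hk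
  set ε : ℝ := 1 / (32 * (k : ℝ)) with hε
  have hε0 : 0 < ε := by rw [hε]; positivity
  have hε1 : ε ≤ 1 := by
    rw [hε, div_le_one (by positivity)]
    linarith only [hk1]
  set S : Finset G := (A ×ˢ A).image (fun q => q.1 - q.2) with hS
  have hn' : 4 * Real.exp (-(ε ^ 2 * n / 4)) * (Fintype.card G : ℝ) ≤ ε * (A.card : ℝ) := by
    calc 4 * Real.exp (-(ε ^ 2 * n / 4)) * (Fintype.card G : ℝ)
        ≤ ε * a * (Fintype.card G : ℝ) := mul_le_mul_of_nonneg_right hn hGc.le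
      _ = ε * (a * (Fintype.card G : ℝ)) := by ring
      _ ≤ ε * (A.card : ℝ) := mul_le_mul_of_nonneg_left haA hε0.le
  obtain ⟨T, hT, hTcard, hTper⟩ := cs_periods A S hA ε hε0 hε1 n hn'
  have hTc : (0 : ℝ) < (T.card : ℝ) := by exact_mod_cast Finset.card_pos.mpr hT
  -- Chang
  have hτ0 : 0 < (1/2 : ℝ) * a ^ n := by positivity
  have hτ : (1/2 : ℝ) * a ^ n * ((univ : Finset G).card : ℝ) ≤ (T.card : ℝ) := by
    rw [card_univ]
    refine le_trans ?_ hTcard
    have h1 : a ≤ (A.card : ℝ) / (Fintype.card G : ℝ) := by rwa [le_div_iff₀ hGc]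
    gcongr
  have hjlt : 16 * Real.log (4 / ((1/2 : ℝ) * a ^ n)) < j := by
    have : 4 / ((1/2 : ℝ) * a ^ n) = 8 / a ^ n := by
      field_simp
      norm_num
    rw [this]
    exact hj
  obtain ⟨Γ, hΓj, hΓ⟩ := local_chang T univ univ univ j (Finset.subset_univ T) hT
    ⟨0, mem_univ _⟩ (fun _ _ _ _ => mem_univ _) (by
      have : (0:ℝ) ≤ ((univ : Finset G).card : ℝ) := Nat.cast_nonneg _
      linarith only [this]) _ hτ0 hτ hjlt
  have hjR : (0:ℝ) < (j : ℝ) := by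
    refine lt_of_le_of_lt ?_ hj
    have h1 : a ^ n ≤ 1 := pow_le_one₀ ha.le ha1
    have h2 : (1:ℝ) ≤ 8 / a ^ n := by
      rw [le_div_iff₀ (by positivity)]
      linarith only [h1]
    have := Real.log_nonneg h2
    linarith only [this]
  refine ⟨Γ, hΓj, ?_⟩
  intro x hx
  have hlarge : ∀ γ : AddChar G ℂ, (T.card : ℝ) / 2 ≤ ‖∑ t ∈ T, γ t‖ → ‖γ x - 1‖ ≤ a / 8 := by
    intro γ hγ
    obtain ⟨χ, hχ, hχ2⟩ := hΓ γ hγ
    have hχ1 : χ = 1 := by
      by_contra hne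
      have h0 : ∑ x : G, χ x = 0 := by
        rw [AddChar.sum_eq_zero_iff_ne_zero]
        exact hne
      rw [h0, norm_zero, card_univ] at hχ
      linarith only [hχ, hGc]
    have h1 := hχ2 x
    rw [hχ1, AddChar.one_apply, sub_self, norm_zero, add_zero] at h1
    refine h1.trans ?_
    calc ∑ lam ∈ Γ, ‖lam x - 1‖ ≤ ∑ _lam ∈ Γ, a / (8 * j) :=
          Finset.sum_le_sum fun lam hlam => bohrBasic_mem.mp hx lam hlam
      _ = (Γ.card : ℝ) * (a / (8 * j)) := by rw [Finset.sum_const, nsmul_eq_mul]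
      _ ≤ (j : ℝ) * (a / (8 * j)) := by
          refine mul_le_mul_of_nonneg_right (by exact_mod_cast hΓj) (by positivity)
      _ = a / 8 := by field_simp
  -- the function phi
  have hAS : ∀ x ∈ A, csH A S x = (A.card : ℝ) := by
    intro x hx
    unfold csH
    rw [Finset.sum_congr rfl (g := fun _ => (1:ℝ)), Finset.sum_const, nsmul_eq_mul, mul_one]
    intro y hy
    rw [if_pos]
    rw [hS, mem_image]
    exact ⟨(x, y), mem_product.mpr ⟨hx, hy⟩, rfl⟩
  have hphi0 : phi A S 0 = (A.card : ℝ) ^ 2 := by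
    unfold phi
    rw [Finset.sum_congr rfl (g := fun _ => (A.card : ℝ)), Finset.sum_const, nsmul_eq_mul, sq]
    intro x hx
    rw [add_zero]
    exact hAS x hx
  have hδ : ∀ t ∈ T, ∀ t' ∈ T, ∀ u, |phi A S (u + (t - t')) - phi A S u|
      ≤ 2 * (2 * ε) * (A.card : ℝ) ^ 2 := by
    intro t ht t' ht' u
    refine phi_shift A S (2 * ε) (by positivity) (t - t') ?_ u
    convert hTper t ht t' ht' using 2
  have hnear := avg_iter_near T (phi A S) _ hδ k
  have hcmp := avg_compare A S T k x (a / 8) hlarge (by positivity)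
  set M : ℝ := ((T.card : ℝ) ^ 2) ^ k with hM
  have hM0 : 0 < M := by rw [hM]; positivity
  have hkε : (k : ℝ) * (2 * (2 * ε) * (A.card : ℝ) ^ 2) = (A.card : ℝ) ^ 2 / 8 := by
    rw [hε]
    field_simp
    norm_num
  have h1 := hnear x
  have h2 := hnear 0
  rw [hkε] at h1 h2
  rw [hphi0] at h2
  have h4k : 2 / (4:ℝ) ^ k ≤ a / 8 := by
    rw [div_le_iff₀ (by positivity)]
    have h5 : 16 ≤ 4 ^ k * a := by rwa [div_le_iff₀ ha] at hk4
    linarith only [h5]
  have h3 : (a / 8 + 2 / (4:ℝ) ^ k) * M * ((Fintype.card G : ℝ) * A.card)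
      ≤ 1 / 4 * M * (A.card : ℝ) ^ 2 := by
    calc (a / 8 + 2 / (4:ℝ) ^ k) * M * ((Fintype.card G : ℝ) * A.card)
        ≤ (a / 8 + a / 8) * M * ((Fintype.card G : ℝ) * A.card) := by gcongr
      _ = 1 / 4 * M * ((a * (Fintype.card G : ℝ)) * A.card) := by ring
      _ ≤ 1 / 4 * M * ((A.card : ℝ) * A.card) := by gcongr
      _ = 1 / 4 * M * (A.card : ℝ) ^ 2 := by ring
  have h4 := hcmp.trans h3
  have hpos : 0 < phi A S x := by
    have e1 := (abs_le.mp h1).2
    have e2 := (abs_le.mp h2).1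
    have e3 := (abs_le.mp h4).1
    have e4 : M * ((A.card : ℝ) ^ 2 / 2) ≤ M * phi A S x := by
      nlinarith only [e1, e2, e3]
    have e5 : (A.card : ℝ) ^ 2 / 2 ≤ phi A S x := le_of_mul_le_mul_left e4 hM0
    have e6 : 0 < (A.card : ℝ) ^ 2 / 2 := by positivity
    linarith only [e5, e6]
  unfold phi at hpos
  obtain ⟨x0, hx0, hx0'⟩ := Finset.exists_lt_of_sum_lt (s := A) (f := fun _ => (0:ℝ)) (by
    simpa using hpos)
  unfold csH at hx0'
  obtain ⟨y, hy, hy'⟩ : ∃ y ∈ A, (0:ℝ) < (if x0 + x - y ∈ S then (1:ℝ) else 0) := by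
    by_contra hcon
    push Not at hcon
    exact absurd hx0' (not_lt.mpr (Finset.sum_nonpos hcon))
  have hmem : x0 + x - y ∈ S := by
    by_contra hcon
    rw [if_neg hcon] at hy'
    exact lt_irrefl _ hy'
  rw [hS, mem_image] at hmem
  obtain ⟨q, hq, hq'⟩ := hmem
  rw [mem_product] at hq
  refine ⟨q.1, hq.1, y, hy, q.2, hq.2, x0, hx0, ?_⟩
  have : x = (x0 + x - y) + y - x0 := by abel
  rw [this, ← hq']
  abel

/-! ## Explicit constants -/

omit [AddCommGroup G] [Fintype G] [DecidableEq G] in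
theorem log_two_div_lower {a : ℝ} (ha : 0 < a) (ha1 : a ≤ 1) : (0.69 : ℝ) ≤ Real.log (2 / a) := by
  have h1 : Real.log 2 ≤ Real.log (2 / a) := by
    apply Real.log_le_log (by norm_num)
    rw [le_div_iff₀ ha]
    linarith only [ha1]
  have := Real.log_two_gt_d9
  linarith only [h1, this]

/-- **Bogolyubov–Ruzsa** (Croot–Sisask, Sanders): if `A` has density at least `a` in the finite
abelian group `G`, then `2A - 2A` contains a Bohr set of rank `O(log^4 (2/a))` and radius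
`a / O(log^4 (2/a))`. -/
theorem bogolyubov (A : Finset G) (a : ℝ) (ha : 0 < a)
    (haA : a * (Fintype.card G : ℝ) ≤ (A.card : ℝ)) :
    ∃ Γ : Finset (AddChar G ℂ), (Γ.card : ℝ) ≤ 4 * 10 ^ 7 * Real.log (2 / a) ^ 4 ∧
      ∀ x ∈ bohr Γ (a / (4 * 10 ^ 8 * Real.log (2 / a) ^ 4)),
        ∃ a₁ ∈ A, ∃ a₂ ∈ A, ∃ a₃ ∈ A, ∃ a₄ ∈ A, x = a₁ + a₂ - a₃ - a₄ := by
  have hGc : (0:ℝ) < (Fintype.card G : ℝ) := by
    have : Nonempty G := ⟨0⟩
    exact_mod_cast Fintype.card_pos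
  have hAc : (0 : ℝ) < (A.card : ℝ) := lt_of_lt_of_le (by positivity) haA
  have hA : A.Nonempty := Finset.card_pos.mp (by exact_mod_cast hAc)
  have hAG : (A.card : ℝ) ≤ (Fintype.card G : ℝ) := by exact_mod_cast Finset.card_le_univ A
  have ha1 : a ≤ 1 := by
    by_contra h
    push Not at h
    nlinarith only [h, hGc, haA, hAG]
  set ℓ : ℝ := Real.log (2 / a) with hℓ
  have hℓ0 : 0.69 ≤ ℓ := log_two_div_lower ha ha1
  have hℓpos : 0 < ℓ := by linarith only [hℓ0]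
  have hlog2 := Real.log_two_lt_d9
  have hlog2' := Real.log_two_gt_d9
  have hexpℓ : Real.exp ℓ = 2 / a := Real.exp_log (by positivity)
  -- k
  set k : ℕ := ⌈3 + ℓ⌉₊ with hk
  have hk1 : 3 + ℓ ≤ (k : ℝ) := Nat.le_ceil _
  have hk2 : (k : ℝ) ≤ 6.8 * ℓ := by
    have := Nat.ceil_lt_add_one (by linarith only [hℓpos] : 0 ≤ 3 + ℓ)
    rw [← hk] at this
    linarith only [this, hℓ0]
  have hkR : (0:ℝ) < (k : ℝ) := by linarith only [hk1, hℓpos]
  have hk0 : 0 < k := by exact_mod_cast hkR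
  have hk4 : 16 / a ≤ 4 ^ k := by
    have h1 : Real.log (16 / a) = 3 * Real.log 2 + ℓ := by
      have : (16:ℝ) / a = 2 ^ 3 * (2 / a) := by ring
      rw [this, Real.log_mul (by norm_num) (by positivity), Real.log_pow, hℓ]
      norm_num
    have h2 : Real.log (16 / a) ≤ Real.log (4 ^ k) := by
      rw [h1, Real.log_pow]
      have h3 : Real.log 4 = 2 * Real.log 2 := by
        rw [show (4:ℝ) = 2 ^ 2 by norm_num, Real.log_pow]; norm_num
      rw [h3]
      nlinarith only [hk1, hlog2', hlog2, hℓpos]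
    exact (Real.log_le_log_iff (by positivity) (by positivity)).mp h2
  -- n
  set n : ℕ := ⌈4096 * (k : ℝ) ^ 2 * (11 * ℓ)⌉₊ with hn
  have hn1 : 4096 * (k : ℝ) ^ 2 * (11 * ℓ) ≤ (n : ℝ) := Nat.le_ceil _
  have hn2 : (n : ℝ) ≤ 2.09 * 10 ^ 6 * ℓ ^ 3 := by
    have h1 := Nat.ceil_lt_add_one (by positivity : 0 ≤ 4096 * (k : ℝ) ^ 2 * (11 * ℓ))
    rw [← hn] at h1
    have h2 : (k : ℝ) ^ 2 ≤ 46.24 * ℓ ^ 2 := by nlinarith only [hk2, hkR]
    have h3 : (1:ℝ) ≤ 5 * ℓ ^ 3 := by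
      have : (0.69:ℝ) ^ 3 ≤ ℓ ^ 3 := by gcongr
      nlinarith only [this]
    have h4 : (k : ℝ) ^ 2 * ℓ ≤ 46.24 * ℓ ^ 3 := by nlinarith only [h2, hℓpos]
    nlinarith only [h1, h3, h4]
  have hnexp : 4 * Real.exp (-((1 / (32 * (k : ℝ))) ^ 2 * n / 4)) ≤ (1 / (32 * (k : ℝ))) * a := by
    have h1 : (11 * ℓ) ≤ (1 / (32 * (k : ℝ))) ^ 2 * n / 4 := by
      have : (1 / (32 * (k : ℝ))) ^ 2 * n / 4 = (n : ℝ) / (4096 * (k : ℝ) ^ 2) := by
        field_simp
        ring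
      rw [this, le_div_iff₀ (by positivity)]
      linarith only [hn1]
    have h2 : Real.exp (-((1 / (32 * (k : ℝ))) ^ 2 * n / 4)) ≤ Real.exp (-(11 * ℓ)) :=
      Real.exp_le_exp.mpr (by linarith only [h1])
    -- 128 k / a ≤ exp (9 ℓ)
    have h3 : 128 * (k : ℝ) / a ≤ Real.exp (11 * ℓ) := by
      have h4 : Real.exp (11 * ℓ) = Real.exp ℓ * Real.exp ℓ * (Real.exp ℓ) ^ 9 := by
        rw [show 11 * ℓ = ℓ + ℓ + 9 * ℓ by ring, Real.exp_add, Real.exp_add]
        congr 1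
        rw [← Real.exp_nat_mul]
        norm_num
      have h5 : (2:ℝ) ≤ Real.exp ℓ := by
        rw [hexpℓ, le_div_iff₀ ha]; linarith only [ha1]
      have h6 : ℓ + 1 ≤ Real.exp ℓ := Real.add_one_le_exp ℓ
      have h7 : (k : ℝ) ≤ 6.8 * Real.exp ℓ := by nlinarith only [hk2, h6]
      have h8 : 128 * (k : ℝ) / a = 64 * k * Real.exp ℓ := by
        rw [hexpℓ]; ring
      have h9 : (2:ℝ) ^ 9 ≤ (Real.exp ℓ) ^ 9 := by gcongr
      rw [h8, h4]
      have h10 : (0:ℝ) < Real.exp ℓ := Real.exp_pos _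
      have h11 : 64 * (k : ℝ) ≤ Real.exp ℓ * (Real.exp ℓ) ^ 9 := by
        calc 64 * (k : ℝ) ≤ Real.exp ℓ * 2 ^ 9 := by linarith only [h7, h10]
          _ ≤ Real.exp ℓ * (Real.exp ℓ) ^ 9 := by gcongr
      nlinarith only [h11, h10]
    have h5 : Real.exp (-(11 * ℓ)) * (128 * (k : ℝ) / a) ≤ 1 := by
      rw [Real.exp_neg]
      rw [inv_mul_le_iff₀ (Real.exp_pos _), mul_one]
      exact h3
    have h6 : (1 / (32 * (k : ℝ))) * a = 4 * (1 / (128 * (k : ℝ) / a)) := by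
      field_simp
      norm_num
    rw [h6]
    have h7 : Real.exp (-(11 * ℓ)) ≤ 1 / (128 * (k : ℝ) / a) := by
      rw [le_div_iff₀ (by positivity)]
      exact h5
    linarith only [h2, h7]
  -- j
  have hlog8 : Real.log (8 / a ^ n) ≤ 2.1 * 10 ^ 6 * ℓ ^ 4 := by
    have h1 : Real.log (8 / a ^ n) = 3 * Real.log 2 + n * (ℓ - Real.log 2) := by
      rw [Real.log_div (by norm_num) (by positivity), Real.log_pow, hℓ,
        Real.log_div (by norm_num) (by positivity), show (8:ℝ) = 2 ^ 3 by norm_num, Real.log_pow]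
      push_cast
      ring
    rw [h1]
    have h2 : (0.69:ℝ) ^ 4 ≤ ℓ ^ 4 := by gcongr
    have h3 : (n : ℝ) * ℓ ≤ 2.09 * 10 ^ 6 * ℓ ^ 4 := by nlinarith only [hn2, hℓpos]
    have h4 : (0:ℝ) ≤ n * Real.log 2 := by positivity
    nlinarith only [h2, h3, h4, hlog2]
  set j : ℕ := ⌊16 * Real.log (8 / a ^ n)⌋₊ + 1 with hj
  have hj1 : 16 * Real.log (8 / a ^ n) < j := by
    rw [hj]; push_cast; exact Nat.lt_floor_add_one _
  have hj2 : (j : ℝ) ≤ 4 * 10 ^ 7 * ℓ ^ 4 := by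
    have h0 : 0 ≤ 16 * Real.log (8 / a ^ n) := by
      have h1 : a ^ n ≤ 1 := pow_le_one₀ ha.le ha1
      have h2 : (1:ℝ) ≤ 8 / a ^ n := by
        rw [le_div_iff₀ (by positivity)]
        linarith only [h1]
      have := Real.log_nonneg h2
      linarith only [this]
    have h1 := Nat.floor_le h0
    have h2 : (0.69:ℝ) ^ 4 ≤ ℓ ^ 4 := by gcongr
    rw [hj]
    push_cast
    nlinarith only [h1, h2, hlog8]
  obtain ⟨Γ, hΓ1, hΓ2⟩ := bogolyubov_core A hA a ha haA k n j hk0 hk4 hnexp hj1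
  refine ⟨Γ, le_trans (by exact_mod_cast hΓ1) hj2, ?_⟩
  intro x hx
  refine hΓ2 x (bohr_mono Γ ?_ hx)
  have hjpos : (0:ℝ) < j := by rw [hj]; push_cast; positivity
  refine div_le_div_of_nonneg_left ha.le (by positivity) ?_
  nlinarith only [hj2, hℓpos]

/-! ## Long homogeneous progressions -/

theorem nsmul_mem_bohr {Γ : Finset (AddChar G ℂ)} {r : ℝ} {v : G} (hv : v ∈ bohr Γ r) (n : ℕ) :
    n • v ∈ bohr Γ (n * r) := by
  induction n with
  | zero => simpa using zero_mem_bohr Γ (le_refl (0:ℝ))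
  | succ n ih =>
    rw [succ_nsmul]
    have := add_mem_bohr ih hv
    have e : (n : ℝ) * r + r = ((n + 1 : ℕ) : ℝ) * r := by push_cast; ring
    rwa [e] at this

theorem zsmul_mem_bohr {Γ : Finset (AddChar G ℂ)} {r : ℝ} (hr : 0 ≤ r) {v : G}
    (hv : v ∈ bohr Γ r) {J : ℕ} {i : ℤ} (hi : |i| ≤ J) :
    i • v ∈ bohr Γ (J * r) := by
  have h1 : i.natAbs ≤ J := by
    have : ((i.natAbs : ℕ) : ℤ) ≤ J := by rwa [Int.natCast_natAbs]
    exact_mod_cast this
  have h2 : i.natAbs • v ∈ bohr Γ (J * r) := by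
    refine bohr_mono Γ ?_ (nsmul_mem_bohr hv i.natAbs)
    exact mul_le_mul_of_nonneg_right (by exact_mod_cast h1) hr
  rcases Int.natAbs_eq i with h | h
  · rw [h, natCast_zsmul]; exact h2
  · rw [h, neg_smul, natCast_zsmul]; exact neg_mem_bohr h2

/-- If `A` has density at least `a` in the finite abelian group `G`, then `2A - 2A` contains
`{i v : |i| ≤ J}` for some `v ≠ 0`, as soon as `log |G|` is larger than
`10^10 log^4 (2/a) (log (2/a) + log J)`. -/
theorem exists_ap (A : Finset G) (a : ℝ) (ha : 0 < a)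
    (haA : a * (Fintype.card G : ℝ) ≤ (A.card : ℝ)) (J : ℕ) (hJ : 1 ≤ J)
    (hG : 10 ^ 10 * Real.log (2 / a) ^ 4 * (Real.log (2 / a) + Real.log J)
      < Real.log (Fintype.card G)) :
    ∃ v : G, v ≠ 0 ∧ ∀ i : ℤ, |i| ≤ J →
      ∃ a₁ ∈ A, ∃ a₂ ∈ A, ∃ a₃ ∈ A, ∃ a₄ ∈ A, i • v = a₁ + a₂ - a₃ - a₄ := by
  have hGc : (0:ℝ) < (Fintype.card G : ℝ) := by
    have : Nonempty G := ⟨0⟩
    exact_mod_cast Fintype.card_pos
  have hAG : (A.card : ℝ) ≤ (Fintype.card G : ℝ) := by exact_mod_cast Finset.card_le_univ A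
  have ha1 : a ≤ 1 := by
    by_contra h
    push Not at h
    nlinarith only [h, hGc, haA, hAG]
  obtain ⟨Γ, hΓ1, hΓ2⟩ := bogolyubov A a ha haA
  set ℓ : ℝ := Real.log (2 / a) with hℓ
  have hℓ0 : 0.69 ≤ ℓ := log_two_div_lower ha ha1
  have hℓpos : 0 < ℓ := by linarith only [hℓ0]
  have hlog2 := Real.log_two_lt_d9
  have hlog2' := Real.log_two_gt_d9
  have hJR : (1:ℝ) ≤ (J : ℝ) := by exact_mod_cast hJ
  have hJpos : (0:ℝ) < (J : ℝ) := by linarith only [hJR]
  have hlogJ : 0 ≤ Real.log J := Real.log_nonneg hJR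
  set R : ℝ := a / (4 * 10 ^ 8 * ℓ ^ 4) with hR
  have hRpos : 0 < R := by rw [hR]; positivity
  set m : ℕ := ⌈Real.log (2 * J / R) / Real.log 2⌉₊ with hm
  have hlogR : Real.log (2 * J / R) ≤ 16.2 + 5 * ℓ + Real.log J := by
    have h1 : 2 * (J : ℝ) / R = 4 * 10 ^ 8 * (J * (ℓ ^ 4 * (2 / a))) := by
      rw [hR]; field_simp
    have h2 : Real.log (4 * 10 ^ 8 : ℝ) ≤ 29 * Real.log 2 := by
      have : (29:ℝ) * Real.log 2 = Real.log (2 ^ 29) := by
        rw [Real.log_pow]; norm_num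
      rw [this]
      exact Real.log_le_log (by norm_num) (by norm_num)
    have h3 : Real.log ℓ ≤ ℓ - 1 := Real.log_le_sub_one_of_pos hℓpos
    have h4 : Real.log (ℓ ^ 4 * (2 / a)) = 4 * Real.log ℓ + ℓ := by
      rw [Real.log_mul (by positivity) (by positivity), Real.log_pow, ← hℓ]
      norm_num
    have h5 : Real.log (4 * 10 ^ 8 * (J * (ℓ ^ 4 * (2 / a))))
        = Real.log (4 * 10 ^ 8) + (Real.log J + (4 * Real.log ℓ + ℓ)) := by
      rw [Real.log_mul (by norm_num) (by positivity),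
        Real.log_mul (x := (J : ℝ)) (by positivity) (by positivity), h4]
    rw [h1, h5]
    calc Real.log (4 * 10 ^ 8) + (Real.log J + (4 * Real.log ℓ + ℓ))
        ≤ 29 * Real.log 2 + (Real.log J + (4 * (ℓ - 1) + ℓ)) := by gcongr
      _ ≤ 16.2 + 5 * ℓ + Real.log J := by linarith only [hlog2]
  have hm1 : Real.log (2 * J / R) / Real.log 2 ≤ m := Nat.le_ceil _
  have hlog2pos : 0 < Real.log 2 := by linarith only [hlog2']
  have hm2 : (m : ℝ) ≤ 43 * (ℓ + Real.log J) := by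
    have h1 : Real.log (2 * J / R) / Real.log 2 ≤ (16.2 + 5 * ℓ + Real.log J) / 0.69 := by
      have h0 : (0:ℝ) ≤ 16.2 + 5 * ℓ + Real.log J := by positivity
      calc Real.log (2 * J / R) / Real.log 2 ≤ (16.2 + 5 * ℓ + Real.log J) / Real.log 2 := by
            gcongr
        _ ≤ (16.2 + 5 * ℓ + Real.log J) / 0.69 := by
            gcongr
            linarith only [hlog2']
    have h2 : (m : ℝ) ≤ (16.2 + 5 * ℓ + Real.log J) / 0.69 + 1 := by
      rcases le_or_gt 0 (Real.log (2 * J / R) / Real.log 2) with h | h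
      · have := Nat.ceil_lt_add_one h
        rw [← hm] at this
        linarith only [this, h1]
      · have h3 : m = 0 := by rw [hm]; exact Nat.ceil_eq_zero.mpr h.le
        rw [h3]
        push_cast
        positivity
    have h3 : (16.2 + 5 * ℓ + Real.log J) / 0.69 + 1 ≤ 43 * (ℓ + Real.log J) := by
      rw [div_add_one (by norm_num), div_le_iff₀ (by norm_num)]
      nlinarith only [hℓ0, hlogJ]
    linarith only [h2, h3]
  have hrad : 2 / (2:ℝ) ^ m ≤ R / J := by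
    have h1 : Real.log (2 * J / R) ≤ m * Real.log 2 := by
      rwa [div_le_iff₀ hlog2pos] at hm1
    have h2 : 2 * J / R ≤ 2 ^ m := by
      rw [← Real.log_pow] at h1
      exact (Real.log_le_log_iff (by positivity) (by positivity)).mp h1
    rw [div_le_div_iff₀ (by positivity) hJpos]
    rw [div_le_iff₀ hRpos] at h2
    linarith only [h2]
  -- the Bohr set is nontrivial
  obtain ⟨v, hv, hv0⟩ : ∃ v ∈ bohr Γ (2 / 2 ^ m), v ≠ 0 := by
    by_contra hcon
    push Not at hcon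
    have h1 : (bohr Γ (2 / 2 ^ m)).card ≤ 1 := by
      rw [Finset.card_le_one]
      intro x hx y hy
      rw [hcon x hx, hcon y hy]
    have h2 := bohr_card_lower Γ m
    have h3 : (Fintype.card G : ℝ) ≤ 81 ^ (Γ.card * m) := by
      calc (Fintype.card G : ℝ) ≤ 81 ^ (Γ.card * m) * ((bohr Γ (2 / 2 ^ m)).card : ℝ) := h2
        _ ≤ 81 ^ (Γ.card * m) * 1 := by
            gcongr
            exact_mod_cast h1
        _ = _ := mul_one _
    have h4 : Real.log (Fintype.card G) ≤ (Γ.card * m) * Real.log 81 := by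
      have := Real.log_le_log hGc h3
      rw [Real.log_pow] at this
      push_cast at this
      exact this
    have h5 : Real.log 81 ≤ 4.86 := by
      have h6 : Real.log 81 ≤ Real.log (2 ^ 7) := Real.log_le_log (by norm_num) (by norm_num)
      rw [Real.log_pow] at h6
      push_cast at h6
      linarith only [h6, hlog2]
    have h6 : (0:ℝ) ≤ Real.log 81 := Real.log_nonneg (by norm_num)
    have h7 : (Γ.card : ℝ) * m * Real.log 81
        ≤ (4 * 10 ^ 7 * ℓ ^ 4) * (43 * (ℓ + Real.log J)) * 4.86 := by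
      gcongr
    have h8 : 0 ≤ ℓ ^ 4 * (ℓ + Real.log J) := by positivity
    nlinarith only [h4, h7, h8, hG]
  refine ⟨v, hv0, ?_⟩
  intro i hi
  have hr0 : 0 ≤ R / J := by positivity
  have h1 : i • v ∈ bohr Γ (J * (R / J)) := zsmul_mem_bohr hr0 (bohr_mono Γ hrad hv) hi
  rw [mul_div_cancel₀ R hJpos.ne'] at h1
  exact hΓ2 _ h1

end Vale.Agent.P015.R2.H74
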