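import Mathlib.NumberTheory.Zsqrtd.GaussianInt
import Vale.Agent.P015.R2.H222.Quad

/-! Transfer of the additive energy between `ℤ × ℤ` and the Gaussian integers. -/

open Finset
open scoped Pointwise

namespace Vale.Agent.P015.R2.H74

/-- (T1) -/
theorem en_eq_addEnergy (W : Finset (ℤ × ℤ)) :
    Vale.Agent.P015.H222.en W = Finset.addEnergy W W := by
  rw [Finset.addEnergy_eq_sum_sq']
  rfl

theorem addEnergy_image_of_injective {G H : Type*} [AddCommGroup G] [AddCommGroup H]
    [DecidableEq G] [DecidableEq H] (f : G → H) (hf : Function.Injective f)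
    (hadd : ∀ a b, f (a + b) = f a + f b) (W : Finset G) :
    Finset.addEnergy (W.image f) (W.image f) = Finset.addEnergy W W := by
  unfold Finset.addEnergy
  symm
  refine Finset.card_nbij (fun x => ((f x.1.1, f x.1.2), (f x.2.1, f x.2.2))) ?_ ?_ ?_
  · intro x hx
    simp only [coe_filter, mem_product, Set.mem_setOf_eq, mem_filter] at hx ⊢
    obtain ⟨⟨⟨h1, h2⟩, h3, h4⟩, h5⟩ := hx
    refine ⟨⟨⟨mem_image_of_mem f h1, mem_image_of_mem f h2⟩, mem_image_of_mem f h3,
      mem_image_of_mem f h4⟩, ?_⟩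
    rw [← hadd, ← hadd, h5]
  · intro x _ y _ hxy
    simp only [Prod.mk.injEq] at hxy
    obtain ⟨⟨h1, h2⟩, h3, h4⟩ := hxy
    exact Prod.ext (Prod.ext (hf h1) (hf h2)) (Prod.ext (hf h3) (hf h4))
  · intro y hy
    simp only [coe_filter, mem_product, Set.mem_setOf_eq, mem_image] at hy
    obtain ⟨⟨⟨⟨a, ha, h1⟩, ⟨b, hb, h2⟩⟩, ⟨c, hc, h3⟩, ⟨d, hd, h4⟩⟩, h5⟩ := hy
    refine ⟨((a, b), (c, d)), ?_, ?_⟩
    · simp only [coe_filter, mem_product, Set.mem_setOf_eq]
      refine ⟨⟨⟨ha, hb⟩, hc, hd⟩, ?_⟩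
      apply hf
      rw [hadd, hadd, h1, h2, h3, h4, h5]
    · simp only [h1, h2, h3, h4]

/-- (T2) -/
theorem gaussian_addEnergy (W : Finset GaussianInt) :
    Finset.addEnergy W W
      = Finset.addEnergy (W.image (fun z : GaussianInt => (z.re, z.im)))
          (W.image (fun z : GaussianInt => (z.re, z.im))) := by
  refine (addEnergy_image_of_injective (fun z : GaussianInt => (z.re, z.im)) ?_ ?_ W).symm
  · intro a b hab
    simp only [Prod.mk.injEq] at hab
    exact Zsqrtd.ext hab.1 hab.2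
  · intro a b
    simp

theorem gaussian_card (W : Finset GaussianInt) :
    (W.image (fun z : GaussianInt => (z.re, z.im))).card = W.card := by
  apply Finset.card_image_of_injective
  intro a b hab
  simp only [Prod.mk.injEq] at hab
  exact Zsqrtd.ext hab.1 hab.2

/-- The same in the other direction. -/
theorem gaussian_en (W : Finset GaussianInt) :
    Finset.addEnergy W W
      = Vale.Agent.P015.H222.en (W.image (fun z : GaussianInt => (z.re, z.im))) := by
  rw [en_eq_addEnergy, gaussian_addEnergy]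

theorem prod_addEnergy (W : Finset (ℤ × ℤ)) :
    Finset.addEnergy (W.image (fun z : ℤ × ℤ => (⟨z.1, z.2⟩ : GaussianInt)))
        (W.image (fun z : ℤ × ℤ => (⟨z.1, z.2⟩ : GaussianInt)))
      = Vale.Agent.P015.H222.en W := by
  rw [en_eq_addEnergy]
  refine addEnergy_image_of_injective (fun z : ℤ × ℤ => (⟨z.1, z.2⟩ : GaussianInt)) ?_ ?_ W
  · intro a b hab
    have h1 := congrArg Zsqrtd.re hab
    have h2 := congrArg Zsqrtd.im hab
    exact Prod.ext h1 h2
  · intro a b
    apply Zsqrtd.ext <;> simp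

theorem prod_card (W : Finset (ℤ × ℤ)) :
    (W.image (fun z : ℤ × ℤ => (⟨z.1, z.2⟩ : GaussianInt))).card = W.card := by
  apply Finset.card_image_of_injective
  intro a b hab
  have h1 := congrArg Zsqrtd.re hab
  have h2 := congrArg Zsqrtd.im hab
  exact Prod.ext h1 h2

end Vale.Agent.P015.R2.H74
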